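import Vale.Agent.P247.H74.Wien

/-!
# P247, package H-ELL: Fourier multipliers on the weighted Wiener algebras
-/

open scoped ContDiff Topology
open Set MeasureTheory Filter Metric Asymptotics

noncomputable section

namespace Vale.Agent.P247.H626

open Vale.Agent.P247.H74

abbrev L1 : Type := lp (fun _ : ℤ × ℤ => ℂ) 1

theorem wt_ge (n : ℤ × ℤ) : 1 ≤ wt n := by
  unfold wt
  have h1 := abs_nonneg (n.1 : ℝ)
  have h2 := abs_nonneg (n.2 : ℝ)
  linarith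

theorem wt_pos (n : ℤ × ℤ) : 0 < wt n := lt_of_lt_of_le one_pos (wt_ge n)

theorem wt_neg (n : ℤ × ℤ) : wt (-n) = wt n := by
  simp [wt]

theorem wtc_ne (n : ℤ × ℤ) : ((wt n : ℝ) : ℂ) ≠ 0 := by
  exact_mod_cast (wt_pos n).ne'

/-! ## The space `L1` -/

theorem summable_norm (x : L1) : Summable fun n => ‖(x : ℤ × ℤ → ℂ) n‖ := by
  have h := lp.memℓp x
  have h2 := (memℓp_gen_iff (p := 1) (by norm_num)).1 h
  simpa using h2

theorem norm_eq (x : L1) : ‖x‖ = ∑' n, ‖(x : ℤ × ℤ → ℂ) n‖ := by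
  have h := lp.norm_eq_tsum_rpow (p := 1) (by norm_num) x
  simpa using h

theorem memL1 {y : ℤ × ℤ → ℂ} (hy : Summable fun n => ‖y n‖) :
    Memℓp (E := fun _ : ℤ × ℤ => ℂ) y 1 := by
  apply memℓp_gen
  simpa using hy

/-- the element of `L1` with given entries -/
def mkL (y : ℤ × ℤ → ℂ) (hy : Summable fun n => ‖y n‖) : L1 := ⟨y, memL1 hy⟩

@[simp] theorem mkL_apply (y : ℤ × ℤ → ℂ) (hy : Summable fun n => ‖y n‖) (n : ℤ × ℤ) :
    (mkL y hy : ℤ × ℤ → ℂ) n = y n := rfl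

theorem summable_mul (q : ℤ × ℤ → ℂ) (C : ℝ) (hq : ∀ n, ‖q n‖ ≤ C) (x : L1) :
    Summable fun n => ‖q n * (x : ℤ × ℤ → ℂ) n‖ := by
  refine Summable.of_nonneg_of_le (fun n => norm_nonneg _) (fun n => ?_)
    ((summable_norm x).mul_left C)
  rw [norm_mul]
  exact mul_le_mul_of_nonneg_right (hq n) (norm_nonneg _)

/-- multiplication by a bounded function -/
def mult (q : ℤ × ℤ → ℂ) (C : ℝ) (hq : ∀ n, ‖q n‖ ≤ C) : L1 →L[ℝ] L1 :=
  LinearMap.mkContinuous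
    { toFun := fun x => mkL (fun n => q n * (x : ℤ × ℤ → ℂ) n) (summable_mul q C hq x)
      map_add' := by
        intro x y
        ext n
        simp [mul_add]
      map_smul' := by
        intro c x
        ext n
        simp [mul_left_comm] } C (by
    intro x
    rw [norm_eq, norm_eq, ← tsum_mul_left]
    refine (summable_mul q C hq x).tsum_le_tsum (fun n => ?_) ((summable_norm x).mul_left C)
    simp only [LinearMap.coe_mk, AddHom.coe_mk, mkL_apply, norm_mul]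
    exact mul_le_mul_of_nonneg_right (hq n) (norm_nonneg _))

@[simp] theorem mult_apply (q : ℤ × ℤ → ℂ) (C : ℝ) (hq : ∀ n, ‖q n‖ ≤ C) (x : L1) (n : ℤ × ℤ) :
    (mult q C hq x : ℤ × ℤ → ℂ) n = q n * (x : ℤ × ℤ → ℂ) n := rfl

/-- multiplication by a function bounded above and below -/
def multE (q : ℤ × ℤ → ℂ) (C c : ℝ) (hq : ∀ n, ‖q n‖ ≤ C) (hc : 0 < c) (hq' : ∀ n, c ≤ ‖q n‖) :
    L1 ≃L[ℝ] L1 :=
  ContinuousLinearEquiv.equivOfInverse (mult q C hq)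
    (mult (fun n => (q n)⁻¹) c⁻¹ (fun n => by
      rw [norm_inv]
      exact inv_anti₀ hc (hq' n)))
    (fun x => by
      ext n
      have : q n ≠ 0 := norm_pos_iff.1 (lt_of_lt_of_le hc (hq' n))
      simp only [mult_apply]
      rw [inv_mul_cancel_left₀ this])
    (fun x => by
      ext n
      have : q n ≠ 0 := norm_pos_iff.1 (lt_of_lt_of_le hc (hq' n))
      simp only [mult_apply]
      rw [mul_inv_cancel_left₀ this])

theorem multE_apply (q : ℤ × ℤ → ℂ) (C c : ℝ) (hq : ∀ n, ‖q n‖ ≤ C) (hc : 0 < c)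
    (hq' : ∀ n, c ≤ ‖q n‖) (x : L1) (n : ℤ × ℤ) :
    (multE q C c hq hc hq' x : ℤ × ℤ → ℂ) n = q n * (x : ℤ × ℤ → ℂ) n := rfl

/-! ## From `WR m` to `L1` -/

/-- the underlying sequence -/
def raw (m : ℕ) : WR m →L[ℝ] L1 := (realSub.subtypeL : realSub →L[ℝ] L1)

theorem cf_eq {m : ℕ} (a : WR m) (n : ℤ × ℤ) :
    cf a n = (raw m a : ℤ × ℤ → ℂ) n / ((wt n : ℝ) : ℂ) ^ m := rfl

theorem raw_neg {m : ℕ} (a : WR m) (n : ℤ × ℤ) :
    (raw m a : ℤ × ℤ → ℂ) (-n) = (starRingEnd ℂ) ((raw m a : ℤ × ℤ → ℂ) n) :=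
  (show realSub from a).2 n

theorem norm_raw {m : ℕ} (a : WR m) : ‖raw m a‖ = ‖a‖ := rfl

/-- an element of `WR m` with given entries -/
def mkR (m : ℕ) (x : L1) (hx : ∀ n, (x : ℤ × ℤ → ℂ) (-n) = (starRingEnd ℂ) ((x : ℤ × ℤ → ℂ) n)) :
    WR m := (⟨x, hx⟩ : realSub)

@[simp] theorem raw_mkR (m : ℕ) (x : L1)
    (hx : ∀ n, (x : ℤ × ℤ → ℂ) (-n) = (starRingEnd ℂ) ((x : ℤ × ℤ → ℂ) n)) :
    raw m (mkR m x hx) = x := rfl

/-- multiplication by `i` -/
def smI : L1 →L[ℝ] L1 := mult (fun _ => Complex.I) 1 (fun _ => by simp)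

/-- the complex sequence of a pair -/
def Emap (m : ℕ) : WR m × WR m →L[ℝ] L1 :=
  (raw m).comp (ContinuousLinearMap.fst ℝ _ _) +
    (smI.comp (raw m)).comp (ContinuousLinearMap.snd ℝ _ _)

theorem Emap_apply (m : ℕ) (a : WR m × WR m) (n : ℤ × ℤ) :
    (Emap m a : ℤ × ℤ → ℂ) n =
      (raw m a.1 : ℤ × ℤ → ℂ) n + Complex.I * (raw m a.2 : ℤ × ℤ → ℂ) n := rfl

theorem Emap_inj (m : ℕ) : Function.Injective (Emap m) := by
  rw [injective_iff_map_eq_zero]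
  intro a ha
  have h1 : ∀ n, (raw m a.1 : ℤ × ℤ → ℂ) n + Complex.I * (raw m a.2 : ℤ × ℤ → ℂ) n = 0 := by
    intro n
    rw [← Emap_apply, ha]
    rfl
  have h2 : ∀ n, (raw m a.1 : ℤ × ℤ → ℂ) n - Complex.I * (raw m a.2 : ℤ × ℤ → ℂ) n = 0 := by
    intro n
    have h := congrArg (starRingEnd ℂ) (h1 (-n))
    rw [raw_neg, raw_neg, map_add, map_mul, Complex.conj_conj, Complex.conj_conj, Complex.conj_I,
      map_zero] at h
    linear_combination h
  have h3 : ∀ n, (raw m a.1 : ℤ × ℤ → ℂ) n = 0 := by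
    intro n
    linear_combination (1 / 2 : ℂ) * h1 n + (1 / 2 : ℂ) * h2 n
  have h4 : ∀ n, (raw m a.2 : ℤ × ℤ → ℂ) n = 0 := by
    intro n
    have h := h1 n
    rw [h3 n, zero_add] at h
    exact (mul_eq_zero.1 h).resolve_left Complex.I_ne_zero
  have h5 : a.1 = 0 := by
    apply Subtype.ext
    apply lp.ext
    funext n
    exact h3 n
  have h6 : a.2 = 0 := by
    apply Subtype.ext
    apply lp.ext
    funext n
    exact h4 n
  exact Prod.ext h5 h6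

theorem summable_conj (x : L1) :
    Summable fun n => ‖(starRingEnd ℂ) ((x : ℤ × ℤ → ℂ) (-n))‖ := by
  have h := (Equiv.neg (ℤ × ℤ)).summable_iff.2 (summable_norm x)
  refine h.congr fun n => ?_
  simp

/-- `n ↦ conj (x (-n))` -/
def cj (x : L1) : L1 := mkL _ (summable_conj x)

theorem cj_apply (x : L1) (n : ℤ × ℤ) :
    (cj x : ℤ × ℤ → ℂ) n = (starRingEnd ℂ) ((x : ℤ × ℤ → ℂ) (-n)) := rfl

theorem Emap_surj (m : ℕ) : Function.Surjective (Emap m) := by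
  intro x
  refine ⟨(mkR m ((1 / 2 : ℝ) • (x + cj x)) ?_, mkR m (smI ((-1 / 2 : ℝ) • (x - cj x))) ?_), ?_⟩
  · intro n
    simp only [lp.coeFn_smul, Pi.smul_apply, lp.coeFn_add, Pi.add_apply, cj_apply, neg_neg,
      Complex.real_smul, map_mul, map_add, Complex.conj_ofReal, Complex.conj_conj]
    ring
  · intro n
    simp only [smI, mult_apply, lp.coeFn_smul, Pi.smul_apply, lp.coeFn_sub, Pi.sub_apply,
      cj_apply, neg_neg, Complex.real_smul, map_mul, map_sub, Complex.conj_ofReal,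
      Complex.conj_conj, Complex.conj_I]
    ring
  · apply lp.ext
    funext n
    rw [Emap_apply]
    simp only [raw_mkR, smI, mult_apply, lp.coeFn_smul, Pi.smul_apply, lp.coeFn_sub, Pi.sub_apply,
      lp.coeFn_add, Pi.add_apply, cj_apply, Complex.real_smul]
    push_cast
    linear_combination (-(1 / 2 : ℂ) * ((x : ℤ × ℤ → ℂ) n - (starRingEnd ℂ) ((x : ℤ × ℤ → ℂ) (-n))))
      * Complex.I_mul_I

def EE (m : ℕ) : (WR m × WR m) ≃L[ℝ] L1 :=
  ContinuousLinearEquiv.ofBijective (Emap m) (LinearMap.ker_eq_bot.2 (Emap_inj m))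
    (LinearMap.range_eq_top.2 (Emap_surj m))

theorem EE_apply (m : ℕ) (a : WR m × WR m) : EE m a = Emap m a := rfl

/-! ## The represented functions -/

theorem norm_ch (n : ℤ × ℤ) (p : P2) : ‖ch n p‖ = 1 := by
  unfold ch
  have h : (2 * Real.pi * Complex.I * ((n.1 : ℂ) * (p.1 : ℂ) + (n.2 : ℂ) * (p.2 : ℂ))) =
      ((2 * Real.pi * ((n.1 : ℝ) * p.1 + (n.2 : ℝ) * p.2) : ℝ) : ℂ) * Complex.I := by
    push_cast
    ring
  rw [h, Complex.norm_exp_ofReal_mul_I]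

theorem ch_neg (n : ℤ × ℤ) (p : P2) : ch (-n) p = (starRingEnd ℂ) (ch n p) := by
  unfold ch
  rw [← Complex.exp_conj]
  congr 1
  simp only [map_mul, map_add, Complex.conj_ofReal, Complex.conj_I, map_ofNat, Prod.fst_neg,
    Prod.snd_neg, Int.cast_neg, map_intCast]
  ring

theorem norm_coef_le (m : ℕ) (x : L1) (n : ℤ × ℤ) :
    ‖(x : ℤ × ℤ → ℂ) n / ((wt n : ℝ) : ℂ) ^ m‖ ≤ ‖(x : ℤ × ℤ → ℂ) n‖ := by
  rw [norm_div, norm_pow, Complex.norm_real, Real.norm_of_nonneg (wt_pos n).le]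
  exact div_le_self (norm_nonneg _) (one_le_pow₀ (wt_ge n))

theorem summable_fx (m : ℕ) (x : L1) (p : P2) :
    Summable fun n => (x : ℤ × ℤ → ℂ) n / ((wt n : ℝ) : ℂ) ^ m * ch n p := by
  refine Summable.of_norm_bounded (summable_norm x) fun n => ?_
  rw [norm_mul, norm_ch, mul_one]
  exact norm_coef_le m x n

/-- the complex function represented by a sequence -/
def fx (m : ℕ) (x : L1) (p : P2) : ℂ :=
  ∑' n : ℤ × ℤ, (x : ℤ × ℤ → ℂ) n / ((wt n : ℝ) : ℂ) ^ m * ch n p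

theorem ev_eq {m : ℕ} (a : WR m) (p : P2) : ((ev a p : ℝ) : ℂ) = fx m (raw m a) p := by
  have hs := summable_fx m (raw m a) p
  have h1 : ev a p = (fx m (raw m a) p).re := by
    unfold ev fx
    rw [Complex.re_tsum hs]
    rfl
  have h2 : (starRingEnd ℂ) (fx m (raw m a) p) = fx m (raw m a) p := by
    unfold fx
    rw [Complex.conj_tsum]
    rw [← (Equiv.neg (ℤ × ℤ)).tsum_eq]
    refine tsum_congr fun n => ?_
    simp only [Equiv.neg_apply, map_mul, map_div₀, map_pow, Complex.conj_ofReal, raw_neg, ch_neg,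
      Complex.conj_conj, wt_neg]
  rw [h1]
  exact (Complex.conj_eq_iff_re.1 h2)

theorem evc_eq {m : ℕ} (a : WR m × WR m) (p : P2) : evc a p = fx m (EE m a) p := by
  unfold evc
  rw [ev_eq, ev_eq]
  unfold fx
  rw [← tsum_mul_left, ← (summable_fx m _ p).tsum_add ((summable_fx m _ p).mul_left _)]
  refine tsum_congr fun n => ?_
  rw [EE_apply, Emap_apply]
  ring

/-- the derivative of a character -/
def dch (n : ℤ × ℤ) : P2 →L[ℝ] ℂ :=
  ((2 * Real.pi * Complex.I * (n.1 : ℂ)) • Complex.ofRealCLM).comp (ContinuousLinearMap.fst ℝ ℝ ℝ) +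
    ((2 * Real.pi * Complex.I * (n.2 : ℂ)) • Complex.ofRealCLM).comp
      (ContinuousLinearMap.snd ℝ ℝ ℝ)

theorem dch_apply (n : ℤ × ℤ) (v : P2) :
    dch n v = 2 * Real.pi * Complex.I * (n.1 : ℂ) * (v.1 : ℂ) +
      2 * Real.pi * Complex.I * (n.2 : ℂ) * (v.2 : ℂ) := rfl

theorem hasFDerivAt_ch (n : ℤ × ℤ) (p : P2) : HasFDerivAt (ch n) (ch n p • dch n) p := by
  have h : HasFDerivAt (fun q : P2 => dch n q) (dch n) p := (dch n).hasFDerivAt
  have h2 := h.cexp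
  have e1 : (fun q : P2 => Complex.exp (dch n q)) = ch n := by
    funext q
    unfold ch
    rw [dch_apply]
    congr 1
    ring
  have e2 : Complex.exp (dch n p) = ch n p := congrFun e1 p
  rw [e1, e2] at h2
  exact h2

theorem norm_dch_le (n : ℤ × ℤ) : ‖dch n‖ ≤ 2 * Real.pi * wt n := by
  refine ContinuousLinearMap.opNorm_le_bound _
    (mul_nonneg (by positivity) (wt_pos n).le) fun v => ?_
  rw [dch_apply]
  have h1 : ‖v.1‖ ≤ ‖v‖ := norm_fst_le v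
  have h2 : ‖v.2‖ ≤ ‖v‖ := norm_snd_le v
  have h3 := norm_nonneg v
  calc ‖2 * (Real.pi : ℂ) * Complex.I * (n.1 : ℂ) * (v.1 : ℂ) +
      2 * Real.pi * Complex.I * (n.2 : ℂ) * (v.2 : ℂ)‖
      ≤ ‖2 * (Real.pi : ℂ) * Complex.I * (n.1 : ℂ) * (v.1 : ℂ)‖ +
        ‖2 * (Real.pi : ℂ) * Complex.I * (n.2 : ℂ) * (v.2 : ℂ)‖ := norm_add_le _ _
    _ = 2 * Real.pi * |(n.1 : ℝ)| * ‖v.1‖ + 2 * Real.pi * |(n.2 : ℝ)| * ‖v.2‖ := by
        simp only [norm_mul, Complex.norm_I, mul_one, Complex.norm_real, Complex.norm_intCast,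
          Complex.norm_ofNat, Real.norm_of_nonneg Real.pi_pos.le]
    _ ≤ 2 * Real.pi * wt n * ‖v‖ := by
        have hp := Real.pi_pos
        have a1 := abs_nonneg (n.1 : ℝ)
        have a2 := abs_nonneg (n.2 : ℝ)
        unfold wt
        nlinarith [mul_nonneg (mul_nonneg hp.le a1) (sub_nonneg.2 h1),
          mul_nonneg (mul_nonneg hp.le a2) (sub_nonneg.2 h2), mul_nonneg hp.le h3]

theorem hasFDerivAt_fx (m : ℕ) (x : L1) (p : P2) :
    HasFDerivAt (fx (m + 1) x)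
      (∑' n : ℤ × ℤ, ((x : ℤ × ℤ → ℂ) n / ((wt n : ℝ) : ℂ) ^ (m + 1) * ch n p) • dch n) p := by
  unfold fx
  have hu : Summable fun n => 2 * Real.pi * ‖(x : ℤ × ℤ → ℂ) n‖ := (summable_norm x).mul_left _
  refine hasFDerivAt_tsum (f := fun n p => (x : ℤ × ℤ → ℂ) n / ((wt n : ℝ) : ℂ) ^ (m + 1) * ch n p)
    (f' := fun n p => ((x : ℤ × ℤ → ℂ) n / ((wt n : ℝ) : ℂ) ^ (m + 1) * ch n p) • dch n) hu
    (fun n q => ?_) (fun n q => ?_) (x₀ := p) (summable_fx (m + 1) x p) p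
  · have h := (hasFDerivAt_ch n q).const_mul ((x : ℤ × ℤ → ℂ) n / ((wt n : ℝ) : ℂ) ^ (m + 1))
    rw [smul_smul] at h
    exact h
  · rw [norm_smul, norm_mul, norm_ch, mul_one]
    have h1 : ‖(x : ℤ × ℤ → ℂ) n / ((wt n : ℝ) : ℂ) ^ (m + 1)‖ ≤ ‖(x : ℤ × ℤ → ℂ) n‖ / wt n := by
      rw [norm_div, norm_pow, Complex.norm_real, Real.norm_of_nonneg (wt_pos n).le]
      refine div_le_div_of_nonneg_left (norm_nonneg _) (wt_pos n) ?_
      exact le_self_pow₀ (wt_ge n) (Nat.succ_ne_zero m)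
    calc ‖(x : ℤ × ℤ → ℂ) n / ((wt n : ℝ) : ℂ) ^ (m + 1)‖ * ‖dch n‖
        ≤ ‖(x : ℤ × ℤ → ℂ) n‖ / wt n * (2 * Real.pi * wt n) :=
          mul_le_mul h1 (norm_dch_le n) (norm_nonneg _)
            (div_nonneg (norm_nonneg _) (wt_pos n).le)
      _ = 2 * Real.pi * ‖(x : ℤ × ℤ → ℂ) n‖ := by
          have := (wt_pos n).ne'
          field_simp

theorem summable_dfx (m : ℕ) (x : L1) (p : P2) : Summable fun n =>
    ((x : ℤ × ℤ → ℂ) n / ((wt n : ℝ) : ℂ) ^ (m + 1) * ch n p) • dch n := by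
  refine Summable.of_norm_bounded ((summable_norm x).mul_left (2 * Real.pi)) fun n => ?_
  rw [norm_smul, norm_mul, norm_ch, mul_one]
  have h1 : ‖(x : ℤ × ℤ → ℂ) n / ((wt n : ℝ) : ℂ) ^ (m + 1)‖ ≤ ‖(x : ℤ × ℤ → ℂ) n‖ / wt n := by
    rw [norm_div, norm_pow, Complex.norm_real, Real.norm_of_nonneg (wt_pos n).le]
    refine div_le_div_of_nonneg_left (norm_nonneg _) (wt_pos n) ?_
    exact le_self_pow₀ (wt_ge n) (Nat.succ_ne_zero m)
  calc ‖(x : ℤ × ℤ → ℂ) n / ((wt n : ℝ) : ℂ) ^ (m + 1)‖ * ‖dch n‖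
      ≤ ‖(x : ℤ × ℤ → ℂ) n‖ / wt n * (2 * Real.pi * wt n) :=
        mul_le_mul h1 (norm_dch_le n) (norm_nonneg _)
          (div_nonneg (norm_nonneg _) (wt_pos n).le)
    _ = 2 * Real.pi * ‖(x : ℤ × ℤ → ℂ) n‖ := by
        have := (wt_pos n).ne'
        field_simp

theorem fderiv_fx (m : ℕ) (x : L1) (p v : P2) :
    fderiv ℝ (fx (m + 1) x) p v =
      ∑' n : ℤ × ℤ, (x : ℤ × ℤ → ℂ) n / ((wt n : ℝ) : ℂ) ^ (m + 1) * ch n p * dch n v := by
  rw [(hasFDerivAt_fx m x p).fderiv]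
  have h := (ContinuousLinearMap.apply ℝ ℂ v).map_tsum (summable_dfx m x p)
  simp only [ContinuousLinearMap.apply_apply] at h
  rw [h]
  rfl

theorem ds_fx (m : ℕ) (x : L1) (p : P2) :
    ds (fx (m + 1) x) p =
      ∑' n : ℤ × ℤ, (x : ℤ × ℤ → ℂ) n / ((wt n : ℝ) : ℂ) ^ (m + 1) * ch n p *
        (2 * Real.pi * Complex.I * (n.1 : ℂ)) := by
  unfold ds
  rw [fderiv_fx]
  refine tsum_congr fun n => ?_
  rw [dch_apply]
  simp

theorem dt_fx (m : ℕ) (x : L1) (p : P2) :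
    dt (fx (m + 1) x) p =
      ∑' n : ℤ × ℤ, (x : ℤ × ℤ → ℂ) n / ((wt n : ℝ) : ℂ) ^ (m + 1) * ch n p *
        (2 * Real.pi * Complex.I * (n.2 : ℂ)) := by
  unfold dt
  rw [fderiv_fx]
  refine tsum_congr fun n => ?_
  rw [dch_apply]
  simp

theorem summable_dfx' (m : ℕ) (x : L1) (p v : P2) : Summable fun n =>
    (x : ℤ × ℤ → ℂ) n / ((wt n : ℝ) : ℂ) ^ (m + 1) * ch n p * dch n v :=
  (summable_dfx m x p).mapL (ContinuousLinearMap.apply ℝ ℂ v)

/-! ## The model operator -/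

/-- the symbol of the model operator -/
def sy (τ : ℂ) (n : ℤ × ℤ) : ℂ :=
  2 * Real.pi * Complex.I * (n.2 : ℂ) - τ * (2 * Real.pi * Complex.I * (n.1 : ℂ)) +
    Real.pi * τ.im

theorem norm_sy_le (τ : ℂ) (n : ℤ × ℤ) :
    ‖sy τ n‖ ≤ (2 * Real.pi * (1 + ‖τ‖) + Real.pi * ‖τ‖) * wt n := by
  have hp := Real.pi_pos
  have h1 : ‖sy τ n‖ ≤ 2 * Real.pi * |(n.2 : ℝ)| + ‖τ‖ * (2 * Real.pi * |(n.1 : ℝ)|) +
      Real.pi * |τ.im| := by
    unfold sy
    refine (norm_add_le _ _).trans ?_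
    refine add_le_add ((norm_sub_le _ _).trans (le_of_eq ?_)) (le_of_eq ?_)
    · simp only [norm_mul, Complex.norm_I, mul_one, Complex.norm_real, Complex.norm_intCast,
        Complex.norm_ofNat, Real.norm_of_nonneg Real.pi_pos.le]
    · simp only [norm_mul, Complex.norm_real, Real.norm_of_nonneg Real.pi_pos.le, Real.norm_eq_abs]
  have h2 := Complex.abs_im_le_norm τ
  have a1 := abs_nonneg (n.1 : ℝ)
  have a2 := abs_nonneg (n.2 : ℝ)
  have a3 := norm_nonneg τ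
  unfold wt
  nlinarith [mul_nonneg hp.le a1, mul_nonneg hp.le a2, mul_nonneg hp.le (mul_nonneg a3 a1),
    mul_nonneg hp.le (mul_nonneg a3 a2), mul_nonneg hp.le a3, mul_nonneg hp.le (sub_nonneg.2 h2)]

theorem sy_re (τ : ℂ) (n : ℤ × ℤ) : (sy τ n).re = Real.pi * τ.im * (2 * (n.1 : ℝ) + 1) := by
  simp [sy]
  ring

theorem sy_im (τ : ℂ) (n : ℤ × ℤ) :
    (sy τ n).im = 2 * Real.pi * ((n.2 : ℝ) - τ.re * (n.1 : ℝ)) := by
  simp [sy]
  ring

theorem abs_le_two (k : ℤ) : |(k : ℝ)| ≤ |2 * (k : ℝ) + 1| ∧ 1 ≤ |2 * (k : ℝ) + 1| := by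
  rcases le_or_gt 0 k with h | h
  · have h' : (0 : ℝ) ≤ k := by exact_mod_cast h
    rw [abs_of_nonneg h', abs_of_nonneg (by linarith)]
    constructor <;> linarith
  · have h' : (k : ℝ) ≤ -1 := by exact_mod_cast (by omega : k ≤ -1)
    rw [abs_of_neg (by linarith), abs_of_neg (by linarith)]
    constructor <;> linarith

theorem exists_lower (τ : ℂ) (hτ : 0 < τ.im) : ∃ c > 0, ∀ n, c * wt n ≤ ‖sy τ n‖ := by
  have hp := Real.pi_pos
  set A : ℝ := Real.pi * τ.im with hA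
  have hA0 : 0 < A := mul_pos hp hτ
  refine ⟨A * (2 * Real.pi) / (4 * Real.pi * (1 + |τ.re|) + A + 4 * Real.pi), by positivity,
    fun n => ?_⟩
  have h1 : A * |(n.1 : ℝ)| ≤ ‖sy τ n‖ := by
    have h := Complex.abs_re_le_norm (sy τ n)
    rw [sy_re, abs_mul, abs_of_pos hA0] at h
    exact (mul_le_mul_of_nonneg_left (abs_le_two n.1).1 hA0.le).trans h
  have h2 : A ≤ ‖sy τ n‖ := by
    have h := Complex.abs_re_le_norm (sy τ n)
    rw [sy_re, abs_mul, abs_of_pos hA0] at h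
    have := mul_le_mul_of_nonneg_left (abs_le_two n.1).2 hA0.le
    linarith
  have h3 : 2 * Real.pi * (|(n.2 : ℝ)| - |τ.re| * |(n.1 : ℝ)|) ≤ ‖sy τ n‖ := by
    have h := Complex.abs_im_le_norm (sy τ n)
    rw [sy_im, abs_mul, abs_of_pos (by positivity : (0 : ℝ) < 2 * Real.pi)] at h
    refine le_trans ?_ h
    refine mul_le_mul_of_nonneg_left ?_ (by positivity)
    rw [← abs_mul]
    exact abs_sub_abs_le_abs_sub _ _
  rw [div_mul_eq_mul_div, div_le_iff₀ (by positivity)]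
  have a1 := abs_nonneg (n.1 : ℝ)
  have a2 := abs_nonneg (n.2 : ℝ)
  have a3 := abs_nonneg τ.re
  have hs := norm_nonneg (sy τ n)
  unfold wt
  -- A * 2π * |n2| ≤ A * s + 2π |re τ| * (A |n1|) ≤ (A + 2π |re τ|) s
  have h4 : A * (2 * Real.pi) * |(n.2 : ℝ)| ≤ (A + 2 * Real.pi * |τ.re|) * ‖sy τ n‖ := by
    have e1 := mul_le_mul_of_nonneg_left h3 hA0.le
    have e2 := mul_le_mul_of_nonneg_left h1 (mul_nonneg (by positivity : (0 : ℝ) ≤ 2 * Real.pi) a3)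
    nlinarith
  have h5 : A * (2 * Real.pi) * |(n.1 : ℝ)| ≤ 2 * Real.pi * ‖sy τ n‖ := by
    have e2 := mul_le_mul_of_nonneg_left h1 (by positivity : (0 : ℝ) ≤ 2 * Real.pi)
    nlinarith
  have h6 : A * (2 * Real.pi) ≤ 2 * Real.pi * ‖sy τ n‖ := by
    have e2 := mul_le_mul_of_nonneg_left h2 (by positivity : (0 : ℝ) ≤ 2 * Real.pi)
    nlinarith
  nlinarith [mul_nonneg (mul_nonneg hp.le a3) hs, mul_nonneg hp.le hs]

theorem H8 : H8_statement := by
  intro m τ hτ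
  obtain ⟨c, hc, hlow⟩ := exists_lower τ hτ
  set C : ℝ := 2 * Real.pi * (1 + ‖τ‖) + Real.pi * ‖τ‖ with hC
  have hq : ∀ n, ‖sy τ n / ((wt n : ℝ) : ℂ)‖ ≤ C := by
    intro n
    rw [norm_div, Complex.norm_real, Real.norm_of_nonneg (wt_pos n).le, div_le_iff₀ (wt_pos n)]
    exact norm_sy_le τ n
  have hq' : ∀ n, c ≤ ‖sy τ n / ((wt n : ℝ) : ℂ)‖ := by
    intro n
    rw [norm_div, Complex.norm_real, Real.norm_of_nonneg (wt_pos n).le, le_div_iff₀ (wt_pos n)]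
    exact hlow n
  refine ⟨((EE (m + 1)).trans (multE _ C c hq hc hq')).trans (EE m).symm, fun a p => ?_⟩
  rw [evc_eq]
  have e1 : evc a = fx (m + 1) (EE (m + 1) a) := funext fun p => evc_eq a p
  rw [e1]
  simp only [ContinuousLinearEquiv.trans_apply, ContinuousLinearEquiv.apply_symm_apply]
  set x := EE (m + 1) a with hx
  rw [ds_fx, dt_fx]
  have s1 := summable_dfx' m x p (1, 0)
  have s2 := summable_dfx' m x p (0, 1)
  have s3 := summable_fx (m + 1) x p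
  have s1' : Summable fun n => (x : ℤ × ℤ → ℂ) n / ((wt n : ℝ) : ℂ) ^ (m + 1) * ch n p *
        (2 * Real.pi * Complex.I * (n.1 : ℂ)) := by
    refine s1.congr fun n => ?_
    rw [dch_apply]
    simp
  have s2' : Summable fun n => (x : ℤ × ℤ → ℂ) n / ((wt n : ℝ) : ℂ) ^ (m + 1) * ch n p *
        (2 * Real.pi * Complex.I * (n.2 : ℂ)) := by
    refine s2.congr fun n => ?_
    rw [dch_apply]
    simp
  unfold fx
  rw [← tsum_mul_left, ← tsum_mul_left, ← s2'.tsum_sub (s1'.mul_left τ),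
    ← (s2'.sub (s1'.mul_left τ)).tsum_add (s3.mul_left _)]
  refine tsum_congr fun n => ?_
  rw [multE_apply]
  unfold sy
  have hw := wtc_ne n
  field_simp
  ring

end Vale.Agent.P247.H626
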