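import Vale.Agent.P247.H626.HEll

/-!
# P247, package H-ELL: regularity for the Laplacian (corrected form of `H14`)
-/

open scoped ContDiff Topology
open Set MeasureTheory Filter Metric Asymptotics

noncomputable section

namespace Vale.Agent.P247.H626

open Vale.Agent.P247.H74

/-- the same as `H14_statement`, with `0 < K` -/
def H14p_statement : Prop := ∀ (m : ℕ) (K : ℝ), 0 < K → ∃ C : ℝ, ∀ τ : ℂ, 1 / K ≤ τ.im → ‖τ‖ ≤ K →
  ∀ (u : P2 → ℝ), ContDiff ℝ ∞ u → Per u → ∀ g : WR m,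
  (∀ p, ‖τ‖ ^ 2 * ds (ds u) p - 2 * τ.re * ds (dt u) p + dt (dt u) p = ev g p) →
  ∃ a : WR (m + 2), (∀ p, ev a p = u p - mean u) ∧ ‖a‖ ≤ C * ‖g‖

/-! ## Means -/

theorem integral_exp (k : ℤ) (hk : k ≠ 0) :
    ∫ x in Icc (0 : ℝ) 1, Complex.exp (2 * Real.pi * Complex.I * (k : ℂ) * (x : ℂ)) = 0 := by
  rw [integral_Icc_eq_integral_Ioc, ← intervalIntegral.integral_of_le zero_le_one,
    integral_exp_mul_complex]
  · have h : Complex.exp (2 * Real.pi * Complex.I * (k : ℂ) * ((1 : ℝ) : ℂ)) = 1 := by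
      rw [Complex.ofReal_one, mul_one, mul_comm, ← Complex.exp_int_mul_two_pi_mul_I k]
    rw [h]
    simp
  · simp [hk, Real.pi_ne_zero]

theorem Icc_prod : (Icc (0 : P2) 1 : Set P2) = Icc (0 : ℝ) 1 ×ˢ Icc (0 : ℝ) 1 := by
  rw [Icc_prod_Icc]
  rfl

theorem integral_ch (n : ℤ × ℤ) (hn : n ≠ 0) : ∫ p in Icc (0 : P2) 1, ch n p = 0 := by
  have h1 : ∀ p : P2, ch n p = Complex.exp (2 * Real.pi * Complex.I * (n.1 : ℂ) * (p.1 : ℂ)) *
      Complex.exp (2 * Real.pi * Complex.I * (n.2 : ℂ) * (p.2 : ℂ)) := by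
    intro p
    unfold ch
    rw [← Complex.exp_add]
    congr 1
    ring
  simp_rw [h1]
  rw [Icc_prod, Measure.volume_eq_prod]
  have h := setIntegral_prod_mul (μ := (volume : Measure ℝ)) (ν := (volume : Measure ℝ))
    (fun x : ℝ => Complex.exp (2 * Real.pi * Complex.I * (n.1 : ℂ) * (x : ℂ)))
    (fun x : ℝ => Complex.exp (2 * Real.pi * Complex.I * (n.2 : ℂ) * (x : ℂ)))
    (Icc (0 : ℝ) 1) (Icc (0 : ℝ) 1)
  rw [h]
  by_cases h1 : n.1 = 0
  · have h2 : n.2 ≠ 0 := fun h2 => hn (Prod.ext h1 h2)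
    rw [integral_exp n.2 h2, mul_zero]
  · rw [integral_exp n.1 h1, zero_mul]

theorem continuous_ch (n : ℤ × ℤ) : Continuous (ch n) :=
  continuous_iff_continuousAt.2 fun p => (hasFDerivAt_ch n p).continuousAt

theorem volume_Icc : volume (Icc (0 : P2) 1) = 1 := by
  rw [Icc_prod, Measure.volume_eq_prod, Measure.prod_prod]
  simp

theorem integral_fx (m : ℕ) (x : L1) :
    ∫ p in Icc (0 : P2) 1, fx m x p = (x : ℤ × ℤ → ℂ) 0 := by
  have hfin : volume (Icc (0 : P2) 1) ≠ ⊤ := by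
    rw [volume_Icc]
    exact ENNReal.one_ne_top
  have hint : ∀ n : ℤ × ℤ, Integrable
      (fun p => (x : ℤ × ℤ → ℂ) n / ((wt n : ℝ) : ℂ) ^ m * ch n p)
      (volume.restrict (Icc (0 : P2) 1)) := by
    intro n
    exact ((continuous_ch n).const_mul _).integrableOn_Icc
  have hnorm : ∀ n : ℤ × ℤ, ∫ p in Icc (0 : P2) 1,
      ‖(x : ℤ × ℤ → ℂ) n / ((wt n : ℝ) : ℂ) ^ m * ch n p‖ =
      ‖(x : ℤ × ℤ → ℂ) n / ((wt n : ℝ) : ℂ) ^ m‖ := by
    intro n
    simp only [norm_mul, norm_ch, mul_one]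
    rw [setIntegral_const, Measure.real, volume_Icc]
    simp
  have hs : Summable fun n : ℤ × ℤ => ∫ p in Icc (0 : P2) 1,
      ‖(x : ℤ × ℤ → ℂ) n / ((wt n : ℝ) : ℂ) ^ m * ch n p‖ := by
    simp_rw [hnorm]
    exact Summable.of_nonneg_of_le (fun n => norm_nonneg _) (fun n => norm_coef_le m x n)
      (summable_norm x)
  have h := hasSum_integral_of_summable_integral_norm hint hs
  have h2 : ∫ p in Icc (0 : P2) 1, fx m x p = ∑' n : ℤ × ℤ, ∫ p in Icc (0 : P2) 1,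
      (x : ℤ × ℤ → ℂ) n / ((wt n : ℝ) : ℂ) ^ m * ch n p := h.tsum_eq.symm
  rw [h2, tsum_eq_single (0 : ℤ × ℤ)]
  · have h3 : ∀ p : P2, ch 0 p = 1 := by
      intro p
      simp [ch]
    simp_rw [h3]
    rw [setIntegral_const, Measure.real, volume_Icc]
    simp [wt]
  · intro n hn
    rw [integral_const_mul, integral_ch n hn, mul_zero]

theorem mean_ev {m : ℕ} (a : WR m) : ((mean (ev a) : ℝ) : ℂ) = (raw m a : ℤ × ℤ → ℂ) 0 := by
  unfold mean
  rw [← integral_fx m (raw m a), ← integral_complex_ofReal]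
  refine integral_congr_ae (Eventually.of_forall fun p => ?_)
  exact ev_eq a p

/-! ## Real multipliers and derivatives -/

/-- a bounded multiplier with the reality condition, `WR m → WR m'` -/
def mulR (m m' : ℕ) (q : ℤ × ℤ → ℂ) (C : ℝ) (hq : ∀ n, ‖q n‖ ≤ C)
    (hr : ∀ n, q (-n) = (starRingEnd ℂ) (q n)) (a : WR m) : WR m' :=
  mkR m' (mult q C hq (raw m a)) (by
    intro n
    rw [mult_apply, mult_apply, raw_neg, hr, map_mul])

theorem raw_mulR (m m' : ℕ) (q : ℤ × ℤ → ℂ) (C : ℝ) (hq : ∀ n, ‖q n‖ ≤ C)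
    (hr : ∀ n, q (-n) = (starRingEnd ℂ) (q n)) (a : WR m) (n : ℤ × ℤ) :
    (raw m' (mulR m m' q C hq hr a) : ℤ × ℤ → ℂ) n = q n * (raw m a : ℤ × ℤ → ℂ) n := rfl

theorem norm_q1 (n : ℤ × ℤ) (k : ℤ) (hk : |(k : ℝ)| ≤ wt n) :
    ‖2 * Real.pi * Complex.I * (k : ℂ) / ((wt n : ℝ) : ℂ)‖ ≤ 2 * Real.pi := by
  rw [norm_div, Complex.norm_real, Real.norm_of_nonneg (wt_pos n).le, div_le_iff₀ (wt_pos n)]
  simp only [norm_mul, Complex.norm_I, mul_one, Complex.norm_real, Complex.norm_intCast,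
    Complex.norm_ofNat, Real.norm_of_nonneg Real.pi_pos.le]
  exact mul_le_mul_of_nonneg_left hk (by positivity)

theorem ds_real {u : P2 → ℝ} {U : P2 → ℂ} (hU : ∀ p, ((u p : ℝ) : ℂ) = U p) {U' : P2 →L[ℝ] ℂ}
    {p : P2} (h : HasFDerivAt U U' p) (v : P2) : ((fderiv ℝ u p v : ℝ) : ℂ) = fderiv ℝ U p v := by
  have e : u = fun q => (U q).re := by
    funext q
    rw [← hU q, Complex.ofReal_re]
  have h1 : HasFDerivAt u (Complex.reCLM.comp U') p := by
    rw [e]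
    exact Complex.reCLM.hasFDerivAt.comp p h
  have h2 : HasFDerivAt U (Complex.ofRealCLM.comp (Complex.reCLM.comp U')) p := by
    have h3 := Complex.ofRealCLM.hasFDerivAt.comp p h1
    have e2 : (Complex.ofRealCLM ∘ u : P2 → ℂ) = U := funext fun q => hU q
    rw [e2] at h3
    exact h3
  rw [h1.fderiv, h2.fderiv]
  rfl

theorem exists_ds {m : ℕ} (a : WR (m + 1)) : ∃ b : WR m, ds (ev a) = ev b ∧
    ∀ n, (raw m b : ℤ × ℤ → ℂ) n =
      2 * Real.pi * Complex.I * (n.1 : ℂ) / ((wt n : ℝ) : ℂ) * (raw (m + 1) a : ℤ × ℤ → ℂ) n := by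
  refine ⟨mulR (m + 1) m (fun n => 2 * Real.pi * Complex.I * (n.1 : ℂ) / ((wt n : ℝ) : ℂ))
    (2 * Real.pi) (fun n => norm_q1 n n.1 ?_) (fun n => ?_) a, ?_, fun n => rfl⟩
  · unfold wt
    have := abs_nonneg (n.2 : ℝ)
    linarith
  · simp only [wt_neg, Prod.fst_neg, Int.cast_neg, map_div₀, map_mul, Complex.conj_ofReal,
      Complex.conj_I, map_ofNat, map_intCast]
    ring
  · funext p
    have h : ((ds (ev a) p : ℝ) : ℂ) = ds (fx (m + 1) (raw (m + 1) a)) p :=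
      ds_real (fun q => ev_eq a q) (hasFDerivAt_fx m _ p) (1, 0)
    have h2 : ((ds (ev a) p : ℝ) : ℂ) = ((ev (mulR (m + 1) m
        (fun n => 2 * Real.pi * Complex.I * (n.1 : ℂ) / ((wt n : ℝ) : ℂ)) (2 * Real.pi)
        (fun n => norm_q1 n n.1 (by
          unfold wt
          have := abs_nonneg (n.2 : ℝ)
          linarith)) (fun n => by
          simp only [wt_neg, Prod.fst_neg, Int.cast_neg, map_div₀, map_mul, Complex.conj_ofReal,
            Complex.conj_I, map_ofNat, map_intCast]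
          ring) a) p : ℝ) : ℂ) := by
      rw [h, ds_fx, ev_eq]
      unfold fx
      refine tsum_congr fun n => ?_
      rw [raw_mulR]
      have hw := wtc_ne n
      field_simp
      ring
    exact_mod_cast h2

theorem exists_dt {m : ℕ} (a : WR (m + 1)) : ∃ b : WR m, dt (ev a) = ev b ∧
    ∀ n, (raw m b : ℤ × ℤ → ℂ) n =
      2 * Real.pi * Complex.I * (n.2 : ℂ) / ((wt n : ℝ) : ℂ) * (raw (m + 1) a : ℤ × ℤ → ℂ) n := by
  have hb : ∀ n : ℤ × ℤ, |((n.2 : ℤ) : ℝ)| ≤ wt n := by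
    intro n
    unfold wt
    have := abs_nonneg (n.1 : ℝ)
    linarith
  have hr : ∀ n : ℤ × ℤ, (fun n : ℤ × ℤ => 2 * Real.pi * Complex.I * (n.2 : ℂ) / ((wt n : ℝ) : ℂ))
      (-n) = (starRingEnd ℂ) ((fun n : ℤ × ℤ => 2 * Real.pi * Complex.I * (n.2 : ℂ) /
        ((wt n : ℝ) : ℂ)) n) := by
    intro n
    simp only [wt_neg, Prod.snd_neg, Int.cast_neg, map_div₀, map_mul, Complex.conj_ofReal,
      Complex.conj_I, map_ofNat, map_intCast]
    ring
  refine ⟨mulR (m + 1) m (fun n => 2 * Real.pi * Complex.I * (n.2 : ℂ) / ((wt n : ℝ) : ℂ))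
    (2 * Real.pi) (fun n => norm_q1 n n.2 (hb n)) hr a, ?_, fun n => rfl⟩
  funext p
  have h : ((dt (ev a) p : ℝ) : ℂ) = dt (fx (m + 1) (raw (m + 1) a)) p :=
    ds_real (fun q => ev_eq a q) (hasFDerivAt_fx m _ p) (0, 1)
  have h2 : ((dt (ev a) p : ℝ) : ℂ) = ((ev (mulR (m + 1) m
      (fun n => 2 * Real.pi * Complex.I * (n.2 : ℂ) / ((wt n : ℝ) : ℂ)) (2 * Real.pi)
      (fun n => norm_q1 n n.2 (hb n)) hr a) p : ℝ) : ℂ) := by
    rw [h, dt_fx, ev_eq]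
    unfold fx
    refine tsum_congr fun n => ?_
    rw [raw_mulR]
    have hw := wtc_ne n
    field_simp
    ring
  exact_mod_cast h2

theorem ev_add {m : ℕ} (a b : WR m) (p : P2) : ev (a + b) p = ev a p + ev b p := by
  have h : ((ev (a + b) p : ℝ) : ℂ) = ((ev a p + ev b p : ℝ) : ℂ) := by
    push_cast
    rw [ev_eq, ev_eq, ev_eq]
    unfold fx
    rw [← (summable_fx m _ p).tsum_add (summable_fx m _ p)]
    refine tsum_congr fun n => ?_
    rw [map_add, lp.coeFn_add, Pi.add_apply]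
    ring
  exact_mod_cast h

theorem ev_smul {m : ℕ} (c : ℝ) (a : WR m) (p : P2) : ev (c • a) p = c * ev a p := by
  have h : ((ev (c • a) p : ℝ) : ℂ) = ((c * ev a p : ℝ) : ℂ) := by
    push_cast
    rw [ev_eq, ev_eq]
    unfold fx
    rw [← tsum_mul_left]
    refine tsum_congr fun n => ?_
    rw [map_smul, lp.coeFn_smul, Pi.smul_apply, Complex.real_smul]
    ring
  exact_mod_cast h

/-! ## The symbol of the Laplacian -/

theorem exists_lap_lower (K : ℝ) (hK : 0 < K) : ∃ C > 0, ∀ τ : ℂ, 1 / K ≤ τ.im → ‖τ‖ ≤ K →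
    ∀ n : ℤ × ℤ, n ≠ 0 →
      wt n ^ 2 ≤ C * (4 * Real.pi ^ 2 * (‖τ‖ ^ 2 * (n.1 : ℝ) ^ 2 -
        2 * τ.re * (n.1 : ℝ) * (n.2 : ℝ) + (n.2 : ℝ) ^ 2)) := by
  refine ⟨(2 * (1 + K + K ^ 2)) ^ 2, by positivity, fun τ h1 h2 n hn => ?_⟩
  set w : ℂ := (n.2 : ℂ) - τ * (n.1 : ℂ) with hw
  have e1 : ‖w‖ ^ 2 = ‖τ‖ ^ 2 * (n.1 : ℝ) ^ 2 - 2 * τ.re * (n.1 : ℝ) * (n.2 : ℝ) +
      (n.2 : ℝ) ^ 2 := by
    rw [← Complex.normSq_eq_norm_sq, ← Complex.normSq_eq_norm_sq, Complex.normSq_apply,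
      Complex.normSq_apply, hw]
    simp
    ring
  rw [← e1]
  have hKi : 0 < 1 / K := by positivity
  have him : 0 < τ.im := lt_of_lt_of_le hKi h1
  have h3 : |(n.1 : ℝ)| ≤ K * ‖w‖ := by
    have h := Complex.abs_im_le_norm w
    have e : w.im = -(τ.im * (n.1 : ℝ)) := by
      simp [hw]
    rw [e, abs_neg, abs_mul, abs_of_pos him] at h
    have h4 : 1 / K * |(n.1 : ℝ)| ≤ ‖w‖ :=
      (mul_le_mul_of_nonneg_right h1 (abs_nonneg _)).trans h
    have h5 := mul_le_mul_of_nonneg_left h4 hK.le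
    rw [← mul_assoc, mul_one_div_cancel hK.ne', one_mul] at h5
    exact h5
  have h4 : |(n.2 : ℝ)| ≤ (1 + K ^ 2) * ‖w‖ := by
    have h : ‖((n.2 : ℂ))‖ ≤ ‖w‖ + ‖τ * (n.1 : ℂ)‖ := by
      have : (n.2 : ℂ) = w + τ * (n.1 : ℂ) := by
        rw [hw]
        ring
      rw [this]
      exact norm_add_le _ _
    rw [norm_mul, Complex.norm_intCast, Complex.norm_intCast] at h
    have h5 : ‖τ‖ * |(n.1 : ℝ)| ≤ K * (K * ‖w‖) :=
      mul_le_mul h2 h3 (abs_nonneg _) hK.le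
    nlinarith
  have h5 : (1 : ℝ) ≤ |(n.1 : ℝ)| + |(n.2 : ℝ)| := by
    by_cases hn1 : n.1 = 0
    · have hn2 : n.2 ≠ 0 := fun h => hn (Prod.ext hn1 h)
      have : (1 : ℝ) ≤ |(n.2 : ℝ)| := by exact_mod_cast Int.one_le_abs hn2
      have := abs_nonneg (n.1 : ℝ)
      linarith
    · have : (1 : ℝ) ≤ |(n.1 : ℝ)| := by exact_mod_cast Int.one_le_abs hn1
      have := abs_nonneg (n.2 : ℝ)
      linarith
  have h6 : wt n ≤ 2 * (1 + K + K ^ 2) * ‖w‖ := by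
    unfold wt
    nlinarith
  have h7 : wt n ^ 2 ≤ (2 * (1 + K + K ^ 2) * ‖w‖) ^ 2 :=
    pow_le_pow_left₀ (wt_pos n).le h6 2
  have h8 : (1 : ℝ) ≤ 4 * Real.pi ^ 2 := by
    nlinarith [Real.pi_gt_three]
  calc wt n ^ 2 ≤ (2 * (1 + K + K ^ 2) * ‖w‖) ^ 2 := h7
    _ = (2 * (1 + K + K ^ 2)) ^ 2 * (1 * ‖w‖ ^ 2) := by ring
    _ ≤ (2 * (1 + K + K ^ 2)) ^ 2 * (4 * Real.pi ^ 2 * ‖w‖ ^ 2) := by
        refine mul_le_mul_of_nonneg_left (mul_le_mul_of_nonneg_right h8 (by positivity))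
          (by positivity)

/-- the corrected form of `H14` -/
theorem H14p (h1 : H1_statement) (h2 : H2_statement) : H14p_statement := by
  intro m K hK
  obtain ⟨C, hC, hlow⟩ := exists_lap_lower K hK
  refine ⟨C, fun τ hτ1 hτ2 u hu hper g hg => ?_⟩
  obtain ⟨b, hb⟩ := h1 (m + 2) u hu hper
  obtain ⟨bs, hbs, hbs'⟩ := exists_ds (m := m + 1) b
  obtain ⟨bt, hbt, hbt'⟩ := exists_dt (m := m + 1) b
  obtain ⟨bss, hbss, hbss'⟩ := exists_ds (m := m) bs
  obtain ⟨bst, hbst, hbst'⟩ := exists_ds (m := m) bt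
  obtain ⟨btt, hbtt, hbtt'⟩ := exists_dt (m := m) bt
  rw [hb] at hbs hbt
  rw [← hbs] at hbss
  rw [← hbt] at hbst hbtt
  set g' : WR m := ‖τ‖ ^ 2 • bss + (-(2 * τ.re)) • bst + btt with hg'
  have hgg : ev g' = ev g := by
    funext p
    rw [hg', ev_add, ev_add, ev_smul, ev_smul, ← hg p, hbss, hbst, hbtt]
    ring
  have hgg' : g' = g := h2 m g' g hgg
  set L : ℤ × ℤ → ℝ := fun n => 4 * Real.pi ^ 2 * (‖τ‖ ^ 2 * (n.1 : ℝ) ^ 2 -
        2 * τ.re * (n.1 : ℝ) * (n.2 : ℝ) + (n.2 : ℝ) ^ 2) with hL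
  have hcoef : ∀ n, (raw m g : ℤ × ℤ → ℂ) n * ((wt n : ℝ) : ℂ) ^ 2 =
      -((L n : ℝ) : ℂ) * (raw (m + 2) b : ℤ × ℤ → ℂ) n := by
    intro n
    rw [← hgg', hg', map_add, map_add, map_smul, map_smul, lp.coeFn_add, lp.coeFn_add,
      Pi.add_apply, Pi.add_apply, lp.coeFn_smul, lp.coeFn_smul, Pi.smul_apply, Pi.smul_apply,
      Complex.real_smul, Complex.real_smul, hbss', hbst', hbtt', hbs', hbt', hL]
    have hw := wtc_ne n
    field_simp
    push_cast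
    ring_nf
    rw [Complex.I_sq]
    ring
  have hsum0 : Summable fun n => ‖if n = 0 then (0 : ℂ) else (raw (m + 2) b : ℤ × ℤ → ℂ) n‖ := by
    refine Summable.of_nonneg_of_le (fun n => norm_nonneg _) (fun n => ?_)
      (summable_norm (raw (m + 2) b))
    split_ifs
    · simp
    · exact le_rfl
  have hreal : ∀ n, (mkL _ hsum0 : ℤ × ℤ → ℂ) (-n) =
      (starRingEnd ℂ) ((mkL _ hsum0 : ℤ × ℤ → ℂ) n) := by
    intro n
    simp only [mkL_apply, neg_eq_zero]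
    split_ifs
    · simp
    · exact raw_neg b n
  refine ⟨mkR (m + 2) (mkL _ hsum0) hreal, fun p => ?_, ?_⟩
  · have h3 : ((ev (mkR (m + 2) (mkL _ hsum0) hreal) p : ℝ) : ℂ) = ((u p - mean u : ℝ) : ℂ) := by
      push_cast
      rw [← hb, ev_eq, ev_eq, mean_ev, raw_mkR]
      unfold fx
      have s := summable_fx (m + 2) (raw (m + 2) b) p
      rw [s.tsum_eq_add_tsum_ite (0 : ℤ × ℤ)]
      have e0 : ch 0 p = 1 := by simp [ch]
      have e1 : ((wt 0 : ℝ) : ℂ) = 1 := by simp [wt]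
      rw [e0, e1, one_pow, div_one, mul_one, add_sub_cancel_left]
      refine tsum_congr fun n => ?_
      rw [mkL_apply]
      split_ifs
      · simp
      · rfl
    exact_mod_cast h3
  · rw [← norm_raw, ← norm_raw, raw_mkR, norm_eq, norm_eq, ← tsum_mul_left]
    refine Summable.tsum_le_tsum (fun n => ?_) hsum0 ((summable_norm _).mul_left C)
    rw [mkL_apply]
    split_ifs with hn
    · rw [norm_zero]
      exact mul_nonneg hC.le (norm_nonneg _)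
    · have h4 := hlow τ hτ1 hτ2 n hn
      have h5 := congrArg norm (hcoef n)
      rw [norm_mul, norm_mul, norm_pow, norm_neg, Complex.norm_real, Complex.norm_real,
        Real.norm_of_nonneg (wt_pos n).le] at h5
      have hw2 : 0 < wt n ^ 2 := pow_pos (wt_pos n) 2
      have hLp : 0 < L n := by
        by_contra hcon
        have : C * L n ≤ 0 := mul_nonpos_of_nonneg_of_nonpos hC.le (not_lt.1 hcon)
        linarith
      rw [Real.norm_of_nonneg hLp.le] at h5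
      have h6 : L n * ‖(raw (m + 2) b : ℤ × ℤ → ℂ) n‖ ≤
          L n * (C * ‖(raw m g : ℤ × ℤ → ℂ) n‖) := by
        rw [← h5]
        have := mul_le_mul_of_nonneg_left h4 (norm_nonneg ((raw m g : ℤ × ℤ → ℂ) n))
        linarith
      exact le_of_mul_le_mul_left h6 hLp

end Vale.Agent.P247.H626
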